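import Crest.Agent.X261.FamG.Ex
import Crest.Agent.X261.Fam69.Defs
import Crest.Agent.X261.Fam77.Low
import Crest.Agent.X261.Fam77.Uq
import Crest.Agent.X261.B88.Bas
import Crest.Agent.X261.End.Set

/-!
# X261, package FAM (helper3), file `Main`: `B88.FamStmt` from the existence statement
-/

set_option autoImplicit false
set_option linter.unusedSectionVars false

open Set Filter Topology MeasureTheory

namespace Crest.Agent.X261.FamG

open Crest.Agent.R275.Geo Crest.Agent.R273.UCov_914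
open Crest.Agent.X261.Fam Crest.Agent.X261.End Crest.Agent.X261.Grp

noncomputable section

variable {n q : ℕ} {X : Type} [TopologicalSpace X] {A : Atl n X} {Γ : Type} [Group Γ]
variable {D : MonD A Γ} {N : Subgroup Γ} (Z : AQ D N q)

theorem exists_mp [Nonempty (D.cov Γ)] (g : Γ) : ∃ φ : Cn q ≃ₜ Cn q, MeasurePreserving φ volume volume ∧
    ∀ e, Z.a (g • e) = φ (Z.a e) := by
  refine ⟨(B88.Le Z g).toHomeomorph.trans (Homeomorph.addRight (Z.lam g)), ?_, Z.eqv g⟩
  set φ := (B88.Le Z g).toHomeomorph.trans (Homeomorph.addRight (Z.lam g)) with hφ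
  refine ⟨φ.continuous.measurable, Measure.ext fun s hs => ?_⟩
  rw [Measure.map_apply φ.continuous.measurable hs]
  have h1 := Fam77.vol_clm (Z.L g) (Z.lam g) (φ ⁻¹' s)
  rw [Z.det g, one_pow, ENNReal.ofReal_one, one_mul] at h1
  rw [← h1]
  exact congrArg volume (φ.image_preimage s)

theorem dat [T2Space X] [CompactSpace X] [Finite A.ι] {M : Subgroup Γ} (hM : FI M (B88.MG Z)) :
    Dat D M Z.a := by
  refine ⟨fun p => ?_, fun m hm => B88.a_MG Z (hM.1 hm), fun R => ?_⟩
  · rw [preimage_univ, inter_univ]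
    exact Z.hol p
  · obtain ⟨C, h1, h2⟩ := B88.prop_fi Z hM (isCompact_closedBall (0 : Cn q) R)
    exact ⟨C, h1, fun e he => h2 e (mem_closedBall_zero_iff.2 he)⟩

/-- **FAM** for the second half -/
theorem famStmt_of (h : Fam69.ExStmt) : B88.FamStmt := by
  intro n X _ _ _ _ A _ _ P K Γ _ D _ N _ q Z _ M _ hM H _ _ _ α h0
  have := Cov.A.countable D
  have hd := dat Z hM
  obtain ⟨f, S, E, hE, hf, hl, hm, hx⟩ := h n q X A P K Γ D M Z.a hd H α
  exact min_of hd (exists_mp Z) (fun g hg => ⟨_, B88.a_H Z (Z.le hg)⟩) α h0 hE hf hl hm hx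
    fun S' h' => Fam77.uniq P K hd h' hm

/-- the statement of `Fam/Defs` -/
theorem fam_of (h : Fam69.ExStmt) : Fam.FamStmt := by
  intro n q X _ _ _ A _ P K G _ _ D M a hd H _ _ _
  refine ⟨fun α => ?_, fun r b S S' h1 h2 => Fam77.uniq P K hd h1 h2⟩
  obtain ⟨f, S, E, hE, hf, hl, hm, hx⟩ := h n q X A P K G D M a hd H α
  exact ⟨S, E, hE, hm, bd_of_ex hd hf hm.hol hl hE hx⟩

end

end Crest.Agent.X261.FamG
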