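import Crest.Agent.X261.Fam.Defs
import Crest.Agent.X261.Rel.Defs

/-!
# X261, package FAM (helper3), file `Lo`: the lower bound of the fibre energy

* `Lo D K M a S E` : the fibre energy of `S` is at least `E`;
* `up_of`, `pos_of`, `low_of` : the fields `up` and `low` of `Rel.Min`.
-/

set_option autoImplicit false
set_option linter.unusedSectionVars false

open Set Filter Topology MeasureTheory Matrix
open scoped ComplexConjugate ComplexOrder InnerProductSpace ContDiff ENNReal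

namespace Crest.Agent.X261.FamG

open Crest.Agent.R275.Geo Crest.Agent.R273.UCov_914 Crest.Agent.R273.Kah_333
open Crest.Agent.R273.Fock_243
open Crest.Agent.X261.Fam

noncomputable section

variable {n q : ℕ} {X : Type} [TopologicalSpace X] {A : Atl n X} {G : Type} [Group G]
variable {H : Type*} [NormedAddCommGroup H] [InnerProductSpace ℂ H]

/-- the fibre energy is at least `E` -/
def Lo (D : MonD A G) (K : Kah A) (M : Subgroup G) (a : D.cov G → Cn q)
    (S : A.ι → G → X → FI n → H) (E : ℝ) : Prop :=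
  ∀ (T : Finset (A.ι × G)) (Kc : A.ι → Set (Cn n)),
    (∀ i, IsCompact (Kc i) ∧ Kc i ⊆ (A.e i).target) → ∀ ψ : Cn q → ℝ, Continuous ψ →
    HasCompactSupport ψ → (∀ t, 0 ≤ ψ t) → (∀ t, ψ t ≤ 1) →
    (∀ e, ψ (a e) ≠ 0 → ∃ m ∈ M, ∃ p ∈ T, ∃ z ∈ Kc p.1,
      m • e = D.pt p.1 p.2 ((A.e p.1).symm z)) →
    E * ∫ t, ψ t ≤ ∑ p ∈ T, ∫ z in Kc p.1,
      n2 (K.g p.1 ((A.e p.1).symm z)) (S p.1 p.2 ((A.e p.1).symm z))

/-! ### pointwise comparison of `n2` with the coefficients -/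

theorem cont_Gam : Continuous (Gam : Mt n → Matrix (FI n) (FI n) ℂ) := by
  refine continuous_pi fun S => continuous_pi fun T => ?_
  unfold Gam
  split_ifs
  · exact (continuous_id.matrix_submatrix _ _).matrix_det
  · exact continuous_const

theorem n2_eq {g : Mt n} (hg : g.PosDef) (S : FI n → H) : n2 g S = g.det.re * en (Gam g⁻¹) S := by
  rw [n2, p2, det_ofReal hg, Complex.re_ofReal_mul, Complex.ofReal_re, en]

theorem n2_nonneg {g : Mt n} (hg : g.PosDef) (S : FI n → H) : 0 ≤ n2 g S := by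
  rw [n2_eq hg]
  exact mul_nonneg (det_re_pos hg).le (en_nonneg (gam_psd hg.inv) S)

theorem sq_le_n2 {g : Mt n} (hg : g.PosDef) (S : FI n → H) (I : FI n) :
    g.det.re * ‖S I‖ ^ 2 ≤ (Gam g I I).re * n2 g S := by
  obtain ⟨N, μ, h⟩ := exists_NF hg (0 : Mr n 0)
  have h1 : S = ac (Gam N⁻¹) (ac (Gam N) S) := by
    rw [← ac_mul, ← Gam_mul, Matrix.nonsing_inv_mul _ h.det_ne.isUnit, Gam_one, ac_one]
  have h2 := norm_ac_sq_le (Gam N⁻¹) (ac (Gam N) S) I
  rw [← h1, Gam_ct, ← Gam_mul, h.inv_mul_ct, ← en_gram, Gam_ct, ← Gam_mul, h.inv] at h2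
  rw [n2_eq hg, mul_left_comm]
  exact mul_le_mul_of_nonneg_left h2 (det_re_pos hg).le

theorem n2_le {g : Mt n} {z : ℝ} (hz : ∀ I J, ‖(g.det • Gam g⁻¹) I J‖ ≤ z) (S : FI n → H) :
    n2 g S ≤ z * Fintype.card (FI n) * sq S := by
  rw [n2, p2, ← ip_smul]
  exact (Complex.re_le_norm _).trans (norm_ip_le_ent hz S)

/-- the metric in a chart -/
def gz (K : Kah A) (i : A.ι) (z : Cn n) : Mt n := K.g i ((A.e i).symm z)

theorem gz_pos (K : Kah A) {i : A.ι} {z : Cn n} (hz : z ∈ (A.e i).target) : (gz K i z).PosDef :=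
  K.pos i _ ((A.e i).map_target hz)

theorem cont_gz (K : Kah A) (i : A.ι) : ContinuousOn (gz K i) (A.e i).target :=
  continuousOn_pi.2 fun a => continuousOn_pi.2 fun b => (K.sm i a b).continuousOn

theorem cont_det (K : Kah A) (i : A.ι) : ContinuousOn (fun z => (gz K i z).det) (A.e i).target :=
  (continuous_id.matrix_det).comp_continuousOn (cont_gz K i)

theorem cont_inv (K : Kah A) (i : A.ι) : ContinuousOn (fun z => (gz K i z)⁻¹) (A.e i).target := by
  intro z hz
  refine ContinuousAt.comp_continuousWithinAt (continuousAt_matrix_inv _ ?_) (cont_gz K i z hz)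
  have : (gz K i z).det ≠ 0 := (gz_pos K hz).det_pos.ne'
  simpa only [Ring.inverse_eq_inv'] using continuousAt_inv₀ this

theorem cont_ip {ι : Type*} [Fintype ι] {Y : Type*} [TopologicalSpace Y] {U : Set Y}
    {W : Y → Matrix ι ι ℂ} {B C : Y → ι → H} (hW : ContinuousOn W U) (hB : ContinuousOn B U)
    (hC : ContinuousOn C U) : ContinuousOn (fun z => ip (W z) (B z) (C z)) U := by
  simp only [ip_eq]
  refine continuousOn_finsetSum _ fun r _ => continuousOn_finsetSum _ fun p _ => ?_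
  exact (continuousOn_pi.1 (continuousOn_pi.1 hW r) p).mul
    (ContinuousOn.inner (𝕜 := ℂ) (continuousOn_pi.1 hB r) (continuousOn_pi.1 hC p))

theorem cont_n2 (K : Kah A) (i : A.ι) {S : Cn n → FI n → H} {U : Set (Cn n)}
    (hU : U ⊆ (A.e i).target) (hS : ContinuousOn S U) :
    ContinuousOn (fun z => n2 (gz K i z) (S z)) U :=
  Complex.continuous_re.comp_continuousOn (((cont_det K i).mono hU).mul
    (cont_ip (cont_Gam.comp_continuousOn ((cont_inv K i).mono hU)) hS hS))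

theorem exists_lo (K : Kah A) (i : A.ι) {V : Set (Cn n)} (hV : IsCompact V)
    (hs : V ⊆ (A.e i).target) :
    ∃ C : ℝ, 0 < C ∧ ∀ z ∈ V, ∀ (S : FI n → H) I, ‖S I‖ ^ 2 ≤ C * n2 (gz K i z) S := by
  have h1 : ContinuousOn (fun z => fun I => Gam (gz K i z) I I / (gz K i z).det) V :=
    continuousOn_pi.2 fun I => ((continuousOn_pi.1 (continuousOn_pi.1
      (cont_Gam.comp_continuousOn ((cont_gz K i).mono hs)) I) I).div ((cont_det K i).mono hs)
      fun z hz => (gz_pos K (hs hz)).det_pos.ne')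
  obtain ⟨C, hC⟩ := hV.exists_bound_of_continuousOn h1
  refine ⟨|C| + 1, by positivity, fun z hz S I => ?_⟩
  have hp := gz_pos K (hs hz)
  have hd := det_re_pos hp
  have h2 := (norm_le_pi_norm _ I).trans (hC z hz)
  rw [norm_div, det_ofReal hp, Complex.norm_real, Real.norm_of_nonneg hd.le, div_le_iff₀ hd] at h2
  have h3 := sq_le_n2 hp S I
  have h4 := n2_nonneg hp S
  have h5 : (Gam (gz K i z) I I).re ≤ (|C| + 1) * (gz K i z).det.re :=
    (Complex.re_le_norm _).trans (h2.trans (by gcongr; linarith [le_abs_self C]))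
  refine le_of_mul_le_mul_left (h3.trans ?_) hd
  calc _ ≤ (|C| + 1) * (gz K i z).det.re * n2 (gz K i z) S := by gcongr
    _ = _ := by ring

theorem exists_hi (K : Kah A) (i : A.ι) {V : Set (Cn n)} (hV : IsCompact V)
    (hs : V ⊆ (A.e i).target) :
    ∃ C : ℝ, 0 < C ∧ ∀ z ∈ V, ∀ S : FI n → H, n2 (gz K i z) S ≤ C * sq S := by
  have h1 : ContinuousOn (fun z => fun p : FI n × FI n =>
      ((gz K i z).det • Gam (gz K i z)⁻¹) p.1 p.2) V :=
    continuousOn_pi.2 fun p => ((cont_det K i).mono hs).mul (continuousOn_pi.1 (continuousOn_pi.1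
      (cont_Gam.comp_continuousOn ((cont_inv K i).mono hs)) p.1) p.2)
  obtain ⟨C, hC⟩ := hV.exists_bound_of_continuousOn h1
  refine ⟨|C| * Fintype.card (FI n) + 1, by positivity, fun z hz S => ?_⟩
  have h2 := n2_le (z := |C|) (g := gz K i z) (fun I J =>
    ((norm_le_pi_norm _ (I, J)).trans (hC z hz)).trans (le_abs_self C)) S
  nlinarith [sq_nonneg' S]

/-! ### integrals -/

theorem lint_sq {f : Cn n → H} {Kc : Set (Cn n)} (hK : IsCompact Kc) (hf : ContinuousOn f Kc) :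
    ∫⁻ z in Kc, ‖f z‖ₑ ^ 2 = ENNReal.ofReal (∫ z in Kc, ‖f z‖ ^ 2) := by
  rw [ofReal_integral_eq_lintegral_ofReal (f := fun z => ‖f z‖ ^ 2)
    ((hf.norm.pow 2).integrableOn_compact hK) (Eventually.of_forall fun z => sq_nonneg _)]
  refine lintegral_congr fun z => ?_
  rw [ENNReal.ofReal_pow (norm_nonneg _), ofReal_norm]

variable {D : MonD A G} {K : Kah A} {M : Subgroup G} {a : D.cov G → Cn q}
  {S : A.ι → G → X → FI n → H} {E : ℝ}

/-- holomorphy in the charts -/
def Hl (A : Atl n X) (S : A.ι → G → X → FI n → H) : Prop :=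
  ∀ i v I, DifferentiableOn ℂ (fun z => S i v ((A.e i).symm z) I) (A.e i).target

theorem Hl.cont (h : Hl A S) (i : A.ι) (v : G) :
    ContinuousOn (fun z => S i v ((A.e i).symm z)) (A.e i).target :=
  continuousOn_pi.2 fun I => (h i v I).continuousOn

theorem cont_rd (hd : Dat D M a) (i : A.ι) (v : G) : ContinuousOn (rd D a i v) (A.e i).target := by
  have := (hd.hol (i, v)).continuousOn
  rwa [preimage_univ, inter_univ] at this

theorem bd_sq (h : Hl A S) (hb : Bd D K a S E) (i : A.ι) {V : Set (Cn n)}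
    (hV : IsCompact V) (hs : V ⊆ (A.e i).target) : ∃ C : ℝ, 0 < C ∧ ∀ v, ∀ Kc ⊆ V, IsCompact Kc →
      ∀ I, ∫ z in Kc, ‖S i v ((A.e i).symm z) I‖ ^ 2 ≤
        C * (E * (volume (rd D a i v '' Kc)).toReal) := by
  obtain ⟨C, h0, hC⟩ := exists_lo (H := H) K i hV hs
  refine ⟨C, h0, fun v Kc h1 h2 I => ?_⟩
  have h3 := h1.trans hs
  refine le_trans ?_ (mul_le_mul_of_nonneg_left (hb i v Kc h3 h2) h0.le)
  rw [← integral_const_mul]
  refine setIntegral_mono_on
    ((((h i v I).continuousOn.mono h3).norm.pow 2).integrableOn_compact h2)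
    (((cont_n2 K i h3 ((h.cont i v).mono h3)).integrableOn_compact h2).const_mul C)
    h2.measurableSet fun z hz => hC z (h1 hz) _ I

/-- the field `up` of `Rel.Min` -/
theorem up_of (h : Hl A S) (hE : 0 ≤ E) (hb : Bd D K a S E) (i : A.ι) (z₀ : Cn n)
    (hz : z₀ ∈ (A.e i).target) : ∃ V ∈ 𝓝 z₀, ∃ C : ℝ≥0∞, C < ⊤ ∧ ∀ v, ∀ Kc ⊆ V, IsCompact Kc →
    ∀ I, ∫⁻ z in Kc, ‖S i v ((A.e i).symm z) I‖ₑ ^ 2 ≤ C * volume (rd D a i v '' Kc) := by
  obtain ⟨V, hV, hs, hc⟩ := local_compact_nhds ((A.e i).open_target.mem_nhds hz)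
  obtain ⟨C, h0, hC⟩ := bd_sq h hb i hc hs
  refine ⟨V, hV, ENNReal.ofReal (C * E), ENNReal.ofReal_lt_top, fun v Kc h1 h2 I => ?_⟩
  rw [lint_sq h2 ((h i v I).continuousOn.mono (h1.trans hs))]
  refine (ENNReal.ofReal_le_ofReal (hC v Kc h1 h2 I)).trans ?_
  rw [← mul_assoc, ENNReal.ofReal_mul (mul_nonneg h0.le hE)]
  exact mul_le_mul_right ENNReal.ofReal_toReal_le _

theorem pos_of (h : Hl A S) (hE : 0 ≤ E) (hb : Bd D K a S E)
    (hne : ∃ i v, ∃ x ∈ (A.e i).source, S i v x ≠ 0) : 0 < E := by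
  refine hE.lt_of_ne fun h0 => ?_
  obtain ⟨i, v, x, hx, h1⟩ := hne
  obtain ⟨I, hI⟩ := Function.ne_iff.1 h1
  obtain ⟨V, hV, hs, hc⟩ := local_compact_nhds
    ((A.e i).open_target.mem_nhds ((A.e i).map_source hx))
  obtain ⟨C, -, hC⟩ := bd_sq h hb i hc hs
  have h2 := hC v V subset_rfl hc I
  rw [← h0, zero_mul, mul_zero] at h2
  have h3 : ContinuousOn (fun z => ‖S i v ((A.e i).symm z) I‖ ^ 2) V :=
    ((h i v I).continuousOn.mono hs).norm.pow 2
  have h4 := (setIntegral_eq_zero_iff_of_nonneg_ae (Eventually.of_forall fun z => sq_nonneg _)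
    (h3.integrableOn_compact hc)).1 (le_antisymm h2 (integral_nonneg fun z => sq_nonneg _))
  have h5 := Measure.eqOn_open_of_ae_eq (μ := volume)
    (ae_restrict_of_ae_restrict_of_subset interior_subset h4) isOpen_interior
    (h3.mono interior_subset) continuousOn_const (mem_interior_iff_mem_nhds.2 hV)
  simp only [(A.e i).left_inv hx, Pi.zero_apply] at h5
  exact hI (by simpa using h5)

/-- the field `low` of `Rel.Min` -/
theorem low_of [T2Space X] [CompactSpace X] [Finite A.ι] [hM : M.Normal] (hd : Dat D M a)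
    (hφ : ∀ g : G, ∃ φ : Cn q ≃ₜ Cn q, MeasurePreserving φ volume volume ∧
      ∀ e, a (g • e) = φ (a e))
    (h : Hl A S) (hE : 0 < E) (hl : Lo D K M a S E) :
    ∃ (T : Finset (A.ι × G)) (Kc : A.ι → Set (Cn n)) (c : ℝ≥0∞), 0 < c ∧
      (∀ i, IsCompact (Kc i) ∧ Kc i ⊆ (A.e i).target) ∧ ∀ g : G,
        c ≤ ∑ p ∈ T, ∑ I, ∫⁻ z in Kc p.1, ‖S p.1 (p.2 * g) ((A.e p.1).symm z) I‖ₑ ^ 2 := by
  classical
  have := Fintype.ofFinite A.ι
  obtain ⟨C0, hC0, hp⟩ := hd.prop 1
  obtain ⟨L, l1, l2, l3⟩ := MonD.exists_shrink A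
  have hf := Cov.B.finite_co D hC0
  set T : Finset (A.ι × G) := Finset.univ ×ˢ hf.toFinset with hT
  have hK : ∀ i, IsCompact (A.e i '' L i) ∧ A.e i '' L i ⊆ (A.e i).target := fun i =>
    ⟨(l1 i).image_of_continuousOn ((A.e i).continuousOn.mono (l2 i)),
      image_subset_iff.2 fun x hx => (A.e i).map_source (l2 i hx)⟩
  choose C hC1 hC2 using fun i => exists_hi (H := H) K i (hK i).1 (hK i).2
  set C1 : ℝ := ∑ i, C i + 1 with hC1'
  have hs0 : 0 ≤ ∑ i, C i := Finset.sum_nonneg fun i _ => (hC1 i).le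
  have hC3 : ∀ i, C i ≤ C1 := fun i => by
    have := Finset.single_le_sum (f := C) (fun j _ => (hC1 j).le) (Finset.mem_univ i)
    linarith
  have hC4 : 0 < C1 := by linarith
  let β : ContDiffBump (0 : Cn q) := ⟨1 / 2, 1, by norm_num, by norm_num⟩
  set b : ℝ := ∫ t, β t with hb
  have hb0 : 0 < b := β.integral_pos
  refine ⟨T, fun i => A.e i '' L i, ENNReal.ofReal (E * b / C1),
    ENNReal.ofReal_pos.2 (by positivity), hK, fun g => ?_⟩
  obtain ⟨φ, hφ1, hφ2⟩ := hφ g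
  let em : A.ι × G ↪ A.ι × G := ⟨fun p => (p.1, p.2 * g), fun p p' hpp =>
    Prod.ext (congrArg Prod.fst hpp :) (mul_right_cancel (congrArg Prod.snd hpp :))⟩
  have h1 := hl (T.map em) (fun i => A.e i '' L i) hK (fun t => β (φ t))
    (β.continuous.comp φ.continuous) (β.hasCompactSupport.comp_homeomorph φ)
    (fun t => β.nonneg) (fun t => β.le_one) fun e he => by
      obtain ⟨m, hm, hme⟩ := hp (g • e) (by
        rw [hφ2]
        have h3 : φ (a e) ∈ Function.support β := he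
        rw [β.support_eq] at h3
        exact (mem_ball_zero_iff.1 h3).le)
      obtain ⟨i, hi⟩ := mem_iUnion.1 (l3 ▸ mem_univ (D.pr (m • g • e)) : D.pr _ ∈ ⋃ i, L i)
      refine ⟨g⁻¹ * m * g, by simpa using hM.conj_mem m hm g⁻¹, em (i, D.co i (m • g • e)),
        Finset.mem_map_of_mem _ ?_, _, ⟨_, hi, rfl⟩, ?_⟩
      · exact Finset.mem_product.2 ⟨Finset.mem_univ _, hf.mem_toFinset.2 ⟨_, hme, i, l2 i hi, rfl⟩⟩
      · change _ = D.pt i (D.co i (m • g • e) * g) ((A.e i).symm (A.e i _))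
        rw [(A.e i).left_inv (l2 i hi), mul_smul, mul_smul]
        conv_lhs => rw [← D.pt_co (l2 i hi), D.deck_pt, inv_inv]
  rw [hφ1.integral_comp φ.measurableEmbedding, Finset.sum_map] at h1
  have h2 : E * b / C1 ≤ ∑ p ∈ T, ∑ I, ∫ z in A.e p.1 '' L p.1,
      ‖S p.1 (p.2 * g) ((A.e p.1).symm z) I‖ ^ 2 := by
    rw [div_le_iff₀' hC4, Finset.mul_sum]
    refine h1.trans (Finset.sum_le_sum fun p _ => ?_)
    have hi : ∀ I, IntegrableOn (fun z => ‖S p.1 (p.2 * g) ((A.e p.1).symm z) I‖ ^ 2)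
        (A.e p.1 '' L p.1) := fun I =>
      (((h p.1 _ I).continuousOn.mono (hK _).2).norm.pow 2).integrableOn_compact (hK _).1
    rw [← integral_finsetSum _ fun I _ => hi I, ← integral_const_mul]
    refine setIntegral_mono_on ((cont_n2 K p.1 (hK _).2
      ((h.cont p.1 _).mono (hK _).2)).integrableOn_compact (hK _).1)
      ((integrable_finsetSum _ fun I _ => hi I).const_mul C1) (hK _).1.measurableSet fun z hz => ?_
    exact (hC2 p.1 z hz _).trans (mul_le_mul_of_nonneg_right (hC3 _) (sq_nonneg' _))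
  refine (ENNReal.ofReal_le_ofReal h2).trans (le_of_eq ?_)
  rw [ENNReal.ofReal_sum_of_nonneg fun p _ => Finset.sum_nonneg fun I _ =>
    integral_nonneg fun z => sq_nonneg _]
  refine Finset.sum_congr rfl fun p _ => ?_
  rw [ENNReal.ofReal_sum_of_nonneg fun I _ => integral_nonneg fun z => sq_nonneg _]
  exact Finset.sum_congr rfl fun I _ =>
    (lint_sq (hK _).1 ((h p.1 _ I).continuousOn.mono (hK _).2)).symm

end

end Crest.Agent.X261.FamG
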