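import Crest.Agent.X261.FamG.Lo
import Crest.Agent.X261.Fam.GA
import Crest.Agent.X261.Fam20.C

/-!
# X261, package FAM (helper3), file `Ex`: the bounds `Bd` and `Lo` from the exact fibre energy

* `dE K a f ψ` : the density `ψ(a) |∂f ∧ da|²`; `den_dE`;
* `Ex D K M a f E` : the energies of the `f k` tend to `E` times the Lebesgue measure;
* `bd_of_ex`, `lo_of_ex`, `isMin_deck`, `min_of`.
-/

set_option autoImplicit false
set_option linter.unusedSectionVars false

open Set Filter Topology MeasureTheory Matrix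
open scoped ComplexConjugate ComplexOrder InnerProductSpace ContDiff ENNReal

namespace Crest.Agent.X261.FamG

open Crest.Agent.R275.Geo Crest.Agent.R275.Core144 Crest.Agent.R273.UCov_914
open Crest.Agent.R273.Kah_333 Crest.Agent.R275.EDR890
open Crest.Agent.R273.Fock_243
open Crest.Agent.X261.Fam
open Crest.Agent.X261.Rel.Act (Rep Act)

noncomputable section

variable {n q : ℕ} {X : Type} [TopologicalSpace X] {A : Atl n X} {G : Type} [Group G]
variable {H : Type} [NormedAddCommGroup H] [InnerProductSpace ℂ H]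

/-! ### pointwise facts -/

theorem e0_eq_n2 {g : Mt n} (hg : g.PosDef) (C : Mr n q) (θ : Fin n → H) :
    e0 g C θ = n2 g (ac (vI C) θ) := by rw [e0_eq_vI hg, n2_eq hg]

theorem n2_conj {N : Mt n} (hN : N.det ≠ 0) (g : Mt n) (S : FI n → H) :
    n2 (N * g * Nᴴ) (ac (Gam N) S) = ‖N.det‖ ^ 2 * n2 g S := by
  rw [n2, n2, p2, p2, ← ip_conj, Gam_ct, ← Gam_mul, ← Gam_mul, inv_conj hN, det_conj, mul_assoc,
    Complex.re_ofReal_mul]

theorem abs_n2_sub {g : Mt n} (hg : g.PosDef) (S S' : FI n → H) {t : ℝ} (ht : 0 < t) :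
    |n2 g S - n2 g S'| ≤ t * n2 g S' + (1 + 1 / t) * n2 g (S - S') := by
  have hp := gam_psd hg.inv
  have h1 := en_add_smul hp.1 S' (S - S') 1
  rw [Complex.ofReal_one, one_smul, add_sub_cancel] at h1
  have h2 := (Complex.abs_re_le_norm _).trans (norm_ip_le hp (S - S') S' (1 / t) (by positivity))
  have h3 := en_nonneg hp (S - S')
  have e1 : 1 / (2 * (1 / t)) = t / 2 := by field_simp
  rw [e1] at h2
  have h4 : |en (Gam g⁻¹) S - en (Gam g⁻¹) S'| ≤
      t * en (Gam g⁻¹) S' + (1 + 1 / t) * en (Gam g⁻¹) (S - S') := by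
    rw [abs_le] at h2 ⊢
    constructor <;> nlinarith [h2.1, h2.2]
  rw [n2_eq hg, n2_eq hg, n2_eq hg, ← mul_sub, abs_mul, abs_of_pos (det_re_pos hg)]
  nlinarith [mul_le_mul_of_nonneg_left h4 (det_re_pos hg).le]

/-! ### the energy density -/

variable {D : MonD A G} {K : Kah A} {M : Subgroup G} {a : D.cov G → Cn q}

/-- the weighted vertical energy density -/
def dE (K : Kah A) (a : D.cov G → Cn q) (f : D.cov G → H) (ψ : Cn q → ℝ) (i : A.ι) (v : G)
    (z : Cn n) : ℂ :=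
  ((ψ (rd D a i v z) * e0 (K.g i ((A.e i).symm z)) (Cf (rd D a i v) z) (th (rd D f i v) z) : ℝ) : ℂ)

theorem dE_eq (f : D.cov G → H) (ψ : Cn q → ℝ) {i : A.ι} (v : G) {z : Cn n}
    (hz : z ∈ (A.e i).target) : dE K a f ψ i v z =
      ((ψ (rd D a i v z) * n2 (gz K i z) (Sl (rd D a i v) (rd D f i v) z) : ℝ) : ℂ) := by
  rw [dE, e0_eq_n2 (K.pos i _ ((A.e i).map_target hz))]
  rfl

theorem cont_Sl (hd : Dat D M a) {f : D.cov G → H} (hf : (D.atl G).Sm f) (i : A.ι) (v : G) :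
    ContinuousOn (Sl (rd D a i v) (rd D f i v)) (A.e i).target :=
  continuousOn_pi.2 fun I => (Fam20.tw_smooth (Fam20.hal_sm hd.hol) hf i v I).continuousOn.congr
    fun z hz => by rw [Fam20.Sl_tw' a f v hz]

theorem Cf_add (a : Cn n → Cn q) (l : Cn q) : Cf (fun z => a z + l) = Cf a := by
  funext z
  ext b h
  simp only [Cf, Matrix.of_apply, PiLp.add_apply, wd, fderiv_add_const]

theorem Sl_eqv (hd : Dat D M a) {r : Rep M H} {b : M → H} {f : D.cov G → H} (hf : Eqv D M r b f)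
    (m : M) {i : A.ι} (v : G) {z : Cn n} (hz : z ∈ (A.e i).target) (I : FI n) :
    Sl (rd D a i (v * (m : G)⁻¹)) (rd D f i (v * (m : G)⁻¹)) z I =
      r.π m (Sl (rd D a i v) (rd D f i v) z I) := by
  have h1 : rd D a i (v * (m : G)⁻¹) = rd D a i v := by
    rw [rd_deck]
    simp only [hd.inv _ m.2]
  have h2 : rd D f i (v * (m : G)⁻¹) = fun w =>
      (r.π m).toContinuousLinearEquiv.toContinuousLinearMap (rd D f i v w) + b m := by
    rw [rd_deck]
    simp only [hf.eqv]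
    rfl
  have h3 : DifferentiableAt ℝ (rd D f i v) z :=
    ((hf.sm (i, v)).contDiffAt ((A.e i).open_target.mem_nhds hz)).differentiableAt (by simp)
  rw [h1, h2, Fam20.Sl_eq, Fam20.Sl_eq]
  have h4 := Fam20.fw_clm (r.π m).toContinuousLinearEquiv.toContinuousLinearMap (rd D a i v) h3 I
  refine Eq.trans ?_ h4.symm
  simp only [Fam20.fw, Fam20.dj_add_const]

theorem den_dE (hd : Dat D M a) {r : Rep M H} {b : M → H} {f : D.cov G → H} (hf : Eqv D M r b f)
    {ψ : Cn q → ℝ} (hψ : Continuous ψ) {R : ℝ} (hR : ∀ t, R < ‖t‖ → ψ t = 0) :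
    Den D M a R (dE K a f ψ) where
  law i j v x hx := by
    have hN : (Jm A i j x)ᵀ.det ≠ 0 := fun h0 => by
      have := K.tr i j x hx
      have h2 := (K.pos i x hx.1).det_pos.ne'
      rw [this, Matrix.det_mul, Matrix.det_mul, h0, zero_mul, zero_mul] at h2
      exact h2 rfl
    rw [dE_eq _ _ _ ((A.e i).map_source hx.1), dE_eq _ _ _ ((A.e j).map_source hx.2),
      Fam20.Sl_tw, Fam20.Sl_tw, Fam20.tw_tr (Fam20.hal_sm hd.hol) hf.sm v hx, rd_pt D a v hx.1,
      rd_pt D a _ hx.2, D.pt_eq v hx.1 hx.2, gz, gz, (A.e i).left_inv hx.1, (A.e j).left_inv hx.2,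
      K.tr i j x hx, ← Complex.ofReal_mul, mul_left_comm, ← Matrix.det_transpose (Jm A i j x),
      ← n2_conj hN]
    rfl
  inv m hm i v z hz := by
    have h1 : rd D a i (v * m⁻¹) = rd D a i v := by
      rw [rd_deck]
      simp only [hd.inv _ hm]
    have h2 : Sl (rd D a i (v * m⁻¹)) (rd D f i (v * m⁻¹)) z = fun I =>
        (r.π ⟨m, hm⟩).toLinearIsometry (Sl (rd D a i v) (rd D f i v) z I) :=
      funext fun I => Sl_eqv hd hf ⟨m, hm⟩ v hz I
    rw [dE_eq _ _ _ hz, dE_eq _ _ _ hz, h2, h1, n2, n2, p2, p2, ip_iso]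
  cont i v := (Complex.continuous_ofReal.comp_continuousOn
    ((hψ.comp_continuousOn (cont_rd hd i v)).mul
      (cont_n2 K i subset_rfl (cont_Sl hd hf.sm i v)))).congr fun z hz => dE_eq _ _ _ hz
  supp i v z _ h := by rw [dE, hR _ h, zero_mul, Complex.ofReal_zero]

theorem exists_rad {ψ : Cn q → ℝ} (h : HasCompactSupport ψ) : ∃ R, ∀ t, R < ‖t‖ → ψ t = 0 := by
  obtain ⟨R, hR⟩ := h.isCompact.isBounded.exists_norm_le
  exact ⟨R, fun t ht => image_eq_zero_of_notMem_tsupport fun h1 => (hR t h1).not_gt ht⟩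

/-- convergence of the local energies -/
theorem tendsto_n2 (hd : Dat D M a) {f : ℕ → D.cov G → H} (hf : ∀ k, (D.atl G).Sm (f k))
    {S : A.ι → G → X → FI n → H} (hS : Hl A S) (h : Lm D a f S) (i : A.ι) (v : G)
    {Kc : Set (Cn n)} (hs : Kc ⊆ (A.e i).target) (hc : IsCompact Kc) :
    Tendsto (fun k => ∫ z in Kc, n2 (gz K i z) (Sl (rd D a i v) (rd D (f k) i v) z)) atTop
      (𝓝 (∫ z in Kc, n2 (gz K i z) (S i v ((A.e i).symm z)))) := by
  obtain ⟨C, hC0, hC⟩ := exists_hi (H := H) K i hc hs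
  set u : ℕ → Cn n → FI n → H := fun k => Sl (rd D a i v) (rd D (f k) i v) with hu
  set s : Cn n → FI n → H := fun z => S i v ((A.e i).symm z) with hs'
  have cu : ∀ k, ContinuousOn (u k) Kc := fun k => (cont_Sl hd (hf k) i v).mono hs
  have cs : ContinuousOn s Kc := (hS.cont i v).mono hs
  have iu := fun k => (cont_n2 K i hs (cu k)).integrableOn_compact (μ := volume) hc
  have is := (cont_n2 K i hs cs).integrableOn_compact (μ := volume) hc
  have id : ∀ k I, IntegrableOn (fun z => ‖u k z I - s z I‖ ^ 2) Kc := fun k I =>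
    (((continuousOn_pi.1 (cu k) I).sub (continuousOn_pi.1 cs I)).norm.pow 2).integrableOn_compact hc
  have t1 : Tendsto (fun k => ∑ I, ∫ z in Kc, ‖u k z I - s z I‖ ^ 2) atTop (𝓝 0) := by
    simpa using tendsto_finsetSum Finset.univ fun I _ => h i v Kc hs hc I
  set b := ∫ z in Kc, n2 (gz K i z) (s z) with hb
  have hb0 : 0 ≤ b := setIntegral_nonneg hc.measurableSet fun z hz => n2_nonneg (gz_pos K (hs hz)) _
  refine Metric.tendsto_nhds.2 fun η hη => ?_
  set t := η / (2 * (b + 1)) with ht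
  have ht0 : 0 < t := by positivity
  have t2 := (t1.const_mul ((1 + 1 / t) * C)).eventually (gt_mem_nhds (show _ < η / 2 by
    rw [mul_zero]; positivity))
  filter_upwards [t2] with k hk
  have h1 : |(∫ z in Kc, n2 (gz K i z) (u k z)) - b| ≤
      t * b + (1 + 1 / t) * C * ∑ I, ∫ z in Kc, ‖u k z I - s z I‖ ^ 2 := by
    rw [hb, ← integral_sub (iu k) is, ← integral_finsetSum _ fun I _ => id k I,
      ← integral_const_mul, ← integral_const_mul, ← integral_add (is.const_mul _)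
        ((integrable_finsetSum _ fun I _ => id k I).const_mul _)]
    refine abs_integral_le_integral_abs.trans (setIntegral_mono_on ((iu k).sub is).abs
      ((is.const_mul _).add ((integrable_finsetSum _ fun I _ => id k I).const_mul _))
      hc.measurableSet fun z hz => (abs_n2_sub (gz_pos K (hs hz)) _ _ ht0).trans ?_)
    rw [mul_assoc]
    gcongr
    exact hC z hz _
  have h2 : t * b ≤ η / 2 := by
    rw [ht, div_mul_eq_mul_div, div_le_div_iff₀ (by positivity) two_pos]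
    nlinarith
  rw [Real.dist_eq]
  linarith

variable [Finite A.ι] [Countable G] [T2Space X]

attribute [local instance] mZ bZ cZ

/-- a compact piece of a sheet -/
def pc (D : MonD A G) (M : Subgroup G) (j : A.ι) (v : G) (Kc : Set (Cn n)) : Set (D.cov (G ⧸ M)) :=
  (fun z => D.pt j (v : G ⧸ M) ((A.e j).symm z)) '' Kc

theorem meas_pc (j : A.ι) (v : G) {Kc : Set (Cn n)} (hs : Kc ⊆ (A.e j).target)
    (hc : IsCompact Kc) : MeasurableSet (pc D M j v Kc) :=
  (hc.image_of_continuousOn (((D.atl (G ⧸ M)).e (j, (v : G ⧸ M))).continuousOn_symm.mono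
    hs)).measurableSet

theorem int_pc {R : ℝ} {Φ : A.ι → G → Cn n → ℂ} (h : Den D M a R Φ) (j : A.ι) (v : G)
    {Kc : Set (Cn n)} (hs : Kc ⊆ (A.e j).target) (hc : IsCompact Kc) :
    ∫ e in pc D M j v Kc, gl D K M Φ e ∂mu D K M = ∫ z in Kc, Φ j v z := by
  have hm := meas_pc (D := D) (M := M) j v hs hc
  have hsub : pc D M j v Kc ⊆ D.sheet j (v : G ⧸ M) := by
    rintro _ ⟨z, hz, rfl⟩
    exact D.pt_mem_sheet _ ((A.e j).map_target (hs hz))
  have h1 := setIntegral_chart (R273.Vol_333.volK (R273.RMan4_798.pullKah D (G ⧸ M) K))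
    (j, (v : G ⧸ M)) ((h.continuous_gl K).aestronglyMeasurable.indicator hm)
  have h2 : ∫ e in D.sheet j (v : G ⧸ M), (pc D M j v Kc).indicator (gl D K M Φ) e ∂mu D K M =
      ∫ e in pc D M j v Kc, gl D K M Φ e ∂mu D K M := by
    rw [setIntegral_indicator hm, inter_eq_right.2 hsub]
  have h3 : ∫ z in (A.e j).target, Kc.indicator (Φ j v) z = ∫ z in Kc, Φ j v z := by
    rw [setIntegral_indicator hc.measurableSet, inter_eq_right.2 hs]
  rw [← h2, ← h3]
  refine h1.trans (setIntegral_congr_fun (A.e j).open_target.measurableSet fun z hz => ?_)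
  have hx := (A.e j).map_target hz
  change (K.g j ((A.e j).symm z)).det.re • (pc D M j v Kc).indicator (gl D K M Φ)
    (D.pt j (v : G ⧸ M) ((A.e j).symm z)) = _
  by_cases hz' : z ∈ Kc
  · rw [indicator_of_mem (show _ ∈ pc D M j v Kc from ⟨z, hz', rfl⟩), indicator_of_mem hz',
      h.gl_pt K v hx, (A.e j).right_inv hz, Complex.real_smul, ← det_ofReal (K.pos j _ hx),
      mul_div_cancel₀ _ (K.pos j _ hx).det_pos.ne']
  · rw [indicator_of_notMem hz', indicator_of_notMem, smul_zero]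
    rintro ⟨w, hw, h4⟩
    exact hz' ((A.e j).symm.injOn (hs hw) hz (congrArg D.pr h4) ▸ hw)

theorem re_gl_nonneg {Φ : A.ι → G → Cn n → ℂ}
    (e : ∀ i v, ∀ z ∈ (A.e i).target, 0 ≤ (Φ i v z).re) (y : D.cov (G ⧸ M)) :
    0 ≤ (gl D K M Φ y).re := by
  rw [re_gl]
  exact div_nonneg (e _ _ _ ((A.e _).map_source (T223.Hm.ix_mem _)))
    (det_re_pos (K.pos _ _ (T223.Hm.ix_mem _))).le

theorem re_int_pc (hd : Dat D M a) {R : ℝ} {Φ : A.ι → G → Cn n → ℂ} (h : Den D M a R Φ) (j : A.ι)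
    (v : G) {Kc : Set (Cn n)} (hs : Kc ⊆ (A.e j).target) (hc : IsCompact Kc) :
    ∫ e in pc D M j v Kc, (gl D K M Φ e).re ∂mu D K M = ∫ z in Kc, (Φ j v z).re := by
  have h1 := congrArg Complex.re (int_pc (K := K) h j v hs hc)
  exact (integral_re (h.integrable K hd).integrableOn).trans (h1.trans
    (integral_re (((h.cont j v).mono hs).integrableOn_compact hc)).symm)

theorem pc_le_IM (hd : Dat D M a) {R : ℝ} {Φ : A.ι → G → Cn n → ℂ} (h : Den D M a R Φ)
    (e : ∀ i v, ∀ z ∈ (A.e i).target, 0 ≤ (Φ i v z).re) (j : A.ι) (v : G)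
    {Kc : Set (Cn n)} (hs : Kc ⊆ (A.e j).target) (hc : IsCompact Kc) :
    ∫ z in Kc, (Φ j v z).re ≤ (IM D K M Φ).re := by
  rw [← re_int_pc (K := K) hd h j v hs hc, re_IM K hd h]
  exact setIntegral_le_integral (h.integrable K hd).re (ae_of_all _ (re_gl_nonneg e))

theorem IM_le_sum (hd : Dat D M a) {R : ℝ} {Φ : A.ι → G → Cn n → ℂ} (h : Den D M a R Φ)
    (e : ∀ i v, ∀ z ∈ (A.e i).target, 0 ≤ (Φ i v z).re) (T : Finset (A.ι × G))
    {Kc : A.ι → Set (Cn n)} (hK : ∀ i, IsCompact (Kc i) ∧ Kc i ⊆ (A.e i).target)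
    (hcov : ∀ i v, ∀ x ∈ (A.e i).source, Φ i v (A.e i x) ≠ 0 → ∃ m ∈ M, ∃ p ∈ T, ∃ z ∈ Kc p.1,
      m • D.pt i v x = D.pt p.1 p.2 ((A.e p.1).symm z)) :
    (IM D K M Φ).re ≤ ∑ p ∈ T, ∫ z in Kc p.1, (Φ p.1 p.2 z).re := by
  have hm := fun p : A.ι × G => meas_pc (D := D) (M := M) p.1 p.2 (hK p.1).2 (hK p.1).1
  have hi : Integrable (fun e => (gl D K M Φ e).re) (mu D K M) := (h.integrable K hd).re
  have e1 : ∀ p : A.ι × G, ∫ z in Kc p.1, (Φ p.1 p.2 z).re = ∫ y, (pc D M p.1 p.2 (Kc p.1)).indicator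
      (fun e => (gl D K M Φ e).re) y ∂mu D K M := fun p => by
    rw [integral_indicator (hm p), re_int_pc (K := K) hd h p.1 p.2 (hK p.1).2 (hK p.1).1]
  simp only [e1]
  rw [← integral_finsetSum _ fun p _ => hi.indicator (hm p), re_IM K hd h]
  refine integral_mono hi (integrable_finsetSum _ fun p _ => hi.indicator (hm p)) fun y => ?_
  have h0 : ∀ p ∈ T, 0 ≤ (pc D M p.1 p.2 (Kc p.1)).indicator (fun e => (gl D K M Φ e).re) y :=
    fun p _ => indicator_nonneg (fun e _ => re_gl_nonneg ‹_› e) y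
  by_cases hy : gl D K M Φ y = 0
  · exact le_trans (by simp [hy]) (Finset.sum_nonneg h0)
  obtain ⟨i, hx⟩ := A.cover (D.pr y)
  rw [h.gl_sheet K (D.mem_sheet_co hx)] at hy
  obtain ⟨m, hm', p, hp, z, hz, h1⟩ := hcov i _ _ hx fun h2 => hy (by rw [h2, zero_div])
  have hc : Cov.A.Cpt D D (QuotientGroup.mk : G → G ⧸ M) := fun _ _ _ _ => rfl
  have h2 := congrArg (Cov.A.cmap D D (QuotientGroup.mk : G → G ⧸ M)) h1
  rw [D.deck_pt, Cov.A.cmap_pt hc, Cov.A.cmap_pt hc, QuotientGroup.mk_mul_of_mem _ (M.inv_mem hm'),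
    QuotientGroup.out_eq', D.pt_co hx] at h2
  refine le_trans (le_of_eq ?_) (Finset.single_le_sum h0 hp)
  rw [indicator_of_mem (show y ∈ pc D M p.1 p.2 (Kc p.1) from ⟨z, hz, h2.symm⟩)]

/-! ### the bounds -/

/-- the energies tend to `E` times the Lebesgue measure -/
def Ex (D : MonD A G) (K : Kah A) (M : Subgroup G) (a : D.cov G → Cn q) (f : ℕ → D.cov G → H)
    (E : ℝ) : Prop :=
  ∀ ψ : Cn q → ℝ, Continuous ψ → HasCompactSupport ψ →
    Tendsto (fun k => (IM D K M (dE K a (f k) ψ)).re) atTop (𝓝 (E * ∫ t, ψ t))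

variable {r : Rep M H} {b : M → H} {f : ℕ → D.cov G → H} {S : A.ι → G → X → FI n → H} {E : ℝ}

theorem dE_nonneg (f : D.cov G → H) {ψ : Cn q → ℝ} (hψ : ∀ t, 0 ≤ ψ t) (i : A.ι) (v : G)
    (z : Cn n) (hz : z ∈ (A.e i).target) : 0 ≤ (dE K a f ψ i v z).re := by
  rw [dE_eq _ _ _ hz, Complex.ofReal_re]
  exact mul_nonneg (hψ _) (n2_nonneg (gz_pos K hz) _)

theorem bd_of_ex (hd : Dat D M a) (hf : ∀ k, Eqv D M r b (f k)) (hS : Hl A S) (hl : Lm D a f S)
    (hE : 0 ≤ E) (h : Ex D K M a f E) : Bd D K a S E := by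
  intro i v Kc hs hc
  have hC : IsCompact (rd D a i v '' Kc) := hc.image_of_continuousOn ((cont_rd hd i v).mono hs)
  have key : ∀ ψ : Cn q → ℝ, Continuous ψ → HasCompactSupport ψ → EqOn ψ 1 (rd D a i v '' Kc) →
      0 ≤ ψ → ∫ z in Kc, n2 (gz K i z) (S i v ((A.e i).symm z)) ≤ E * ∫ t, ψ t := by
    intro ψ h1 h2 h3 h4
    obtain ⟨R, hR⟩ := exists_rad h2
    refine le_of_tendsto_of_tendsto' (tendsto_n2 hd (fun k => (hf k).sm) hS hl i v hs hc)
      (h ψ h1 h2) fun k => le_trans (le_of_eq ?_)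
        (pc_le_IM hd (den_dE hd (hf k) h1 hR) (dE_nonneg _ h4) i v hs hc)
    refine setIntegral_congr_fun hc.measurableSet fun z hz => ?_
    simp only [dE_eq _ _ _ (hs hz), Complex.ofReal_re, h3 ⟨z, hz, rfl⟩, Pi.one_apply, one_mul]
  refine le_of_forall_pos_le_add fun η hη => ?_
  have h1 : volume (rd D a i v '' Kc) <
      ENNReal.ofReal ((volume (rd D a i v '' Kc)).toReal + η / (E + 1)) := by
    rw [ENNReal.ofReal_add ENNReal.toReal_nonneg (by positivity),
      ENNReal.ofReal_toReal hC.measure_lt_top.ne]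
    exact ENNReal.lt_add_right hC.measure_lt_top.ne (ENNReal.ofReal_pos.2 (by positivity)).ne'
  conv_lhs at h1 => rw [hC.measure_eq_biInf_integral_hasCompactSupport volume]
  simp only [iInf_lt_iff] at h1
  obtain ⟨ψ, h2, h3, h4, h5, h6⟩ := h1
  have h7 := ((ENNReal.ofReal_lt_ofReal_iff (by positivity)).1 h6).le
  refine (key ψ h2 h3 h4 h5).trans ((mul_le_mul_of_nonneg_left h7 hE).trans ?_)
  rw [mul_add]
  gcongr
  rw [mul_div_assoc', div_le_iff₀ (by positivity)]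
  nlinarith

theorem lo_of_ex (hd : Dat D M a) (hf : ∀ k, Eqv D M r b (f k)) (hS : Hl A S) (hl : Lm D a f S)
    (h : Ex D K M a f E) : Lo D K M a S E := by
  intro T Kc hK ψ h1 h2 h3 h4 h5
  obtain ⟨R, hR⟩ := exists_rad h2
  refine le_of_tendsto_of_tendsto' (h ψ h1 h2) (tendsto_finsetSum T fun p _ =>
    tendsto_n2 hd (fun k => (hf k).sm) hS hl p.1 p.2 (hK _).2 (hK _).1) fun k => ?_
  have hD := den_dE (K := K) hd (hf k) h1 hR
  refine (IM_le_sum hd hD (dE_nonneg _ h3) T hK fun i v x hx h6 => h5 _ fun h7 => h6 ?_).trans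
    (Finset.sum_le_sum fun p _ => ?_)
  · rw [dE, rd_pt D a v hx, h7, zero_mul, Complex.ofReal_zero]
  · refine setIntegral_mono_on (((hD.cont _ _).mono (hK _).2).integrableOn_compact (hK _).1).re
      ((cont_n2 K _ (hK _).2 ((cont_Sl hd (hf k).sm _ _).mono (hK _).2)).integrableOn_compact
        (hK _).1) (hK _).1.measurableSet fun z hz => ?_
    rw [dE_eq _ _ _ ((hK _).2 hz), Complex.ofReal_re]
    exact mul_le_of_le_one_left (n2_nonneg (gz_pos K ((hK _).2 hz)) _) (h4 _)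

/-! ### translates -/

theorem isMin_deck {g : G} {l : Cn q} (hl : ∀ e, a (g • e) = a e + l)
    (hg : ∀ f, Eqv D M r b f → Eqv D M r b fun e => f (g • e)) (h : IsMin D K M a r b S) :
    IsMin D K M a r b fun i v x => S i (v * g⁻¹) x := by
  have h1 : ∀ i v, Cf (rd D a i (v * g⁻¹)) = Cf (rd D a i v) := fun i v => by
    rw [rd_deck]
    simp only [hl]
    exact Cf_add (rd D a i v) l
  obtain ⟨f, hf, h2⟩ := h.lim
  refine ⟨fun i v I => h.hol i _ I, ⟨fun k e => f k (g • e), fun k => hg _ (hf k),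
    fun i v Kc hs hc I => ?_⟩, fun i v u u1 u2 u3 u4 => ?_⟩
  · have h3 := h2 i (v * g⁻¹) Kc hs hc I
    simp only [Sl, h1] at h3 ⊢
    simpa only [rd_deck] using h3
  · have h3 := h.orth i (v * g⁻¹) u u1 u2 u3 u4
    simpa only [Sl, h1] using h3

theorem eqv_deck [hM : M.Normal] {N : Subgroup G} [hN : N.Normal] (α : Act M H)
    (h0 : ∀ m : M, (m : G) ∈ N → ∀ x, α.α m x = x) {g : G} (hg : g ∈ N) (f : D.cov G → H)
    (hf : Eqv D M α.toRep α.b f) : Eqv D M α.toRep α.b fun e => f (g • e) := by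
  refine ⟨fun p => ?_, fun e => hf.real _, fun m e => ?_⟩
  · have h1 := hf.sm (p.1, p.2 * g⁻¹)
    change ContDiffOn ℝ ∞ (rd D f p.1 (p.2 * g⁻¹)) _ at h1
    rw [rd_deck] at h1
    exact h1
  · have h1 : (m : G)⁻¹ * (g * m * g⁻¹) ∈ M := M.mul_mem (M.inv_mem m.2) (hM.conj_mem _ m.2 g)
    have h2 : (m : G)⁻¹ * (g * m * g⁻¹) ∈ N := by
      have := N.mul_mem (hN.conj_mem g hg (m : G)⁻¹) (N.inv_mem hg)
      simpa only [inv_inv, mul_assoc] using this
    have h3 : g • (m : G) • e = (m : G) • ((⟨_, h1⟩ : M) : G) • g • e := by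
      simp only [smul_smul]
      congr 1
      group
    have h4 : f (((⟨_, h1⟩ : M) : G) • g • e) = f (g • e) := (hf.eqv _ _).trans (h0 _ h2 _)
    rw [h3, hf.eqv, h4]

/-- the structure `Rel.Min` -/
theorem min_of [CompactSpace X] [M.Normal] {N : Subgroup G} [N.Normal] (hd : Dat D M a)
    (hφ : ∀ g : G, ∃ φ : Cn q ≃ₜ Cn q, MeasurePreserving φ volume volume ∧
      ∀ e, a (g • e) = φ (a e))
    (hN : ∀ g ∈ N, ∃ l, ∀ e, a (g • e) = a e + l) (α : Act M H)
    (h0 : ∀ m : M, (m : G) ∈ N → ∀ x, α.α m x = x) (hE : 0 ≤ E)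
    (hf : ∀ k, Eqv D M α.toRep α.b (f k)) (hl : Lm D a f S) (hm : IsMin D K M a α.toRep α.b S)
    (h : Ex D K M a f E)
    (hU : ∀ S', IsMin D K M a α.toRep α.b S' → ∀ i v, ∀ x ∈ (A.e i).source, S' i v x = S i v x) :
    Nonempty (Rel.Min D a α N) := by
  have hb := bd_of_ex hd hf hm.hol hl hE h
  refine ⟨⟨f, S, Fam20.lim_of_lm hd.hol (fun k => (hf k).sm) hm.hol hl, fun k => (hf k).real,
    fun k => (hf k).eqv, Fam20.min_tr hd.hol hm, Fam20.min_eqv hd hm, fun g hg => ?_,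
    Fam20.min_deg hd.hol hm, Fam20.min_hor hd.hol hm, Fam20.min_closed hd.hol hm,
    up_of hm.hol hE hb, fun hne => low_of hd hφ hm.hol (pos_of hm.hol hE hb hne)
      (lo_of_ex hd hf hm.hol hl h)⟩⟩
  obtain ⟨l, hl'⟩ := hN g hg
  exact hU _ (isMin_deck hl' (eqv_deck α h0 hg) hm)

end

end Crest.Agent.X261.FamG
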